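import Vale.Agent.P181.GN.Defs

set_option autoImplicit false

/-!
# P181, GN: the two halves of [Q2]
-/

open MvPolynomial

namespace Vale.Agent.P181.GN.H605

open Vale.Agent.P181.GN

variable {k : ℕ}

/-- The translation in row one modulo fewer letters. -/
noncomputable def DD0 : Derivation ℂ (Po k) (Po k) :=
  mkDerivation ℂ fun p => if sz p ≤ 1 then 0 else (p.1 : ℂ) • X (p.1 - 1, p.2)

/-- The translation in row `i` of `tau` modulo fewer letters. -/
noncomputable def DD (i : Fin k) : Derivation ℂ (Po k) (Po k) :=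
  mkDerivation ℂ fun p => if sz p ≤ 1 then 0 else (p.2 i : ℂ) • X (p.1, p.2 - Pi.single i 1)

/-- Exactly `y` letters, content `(m0; tau)`. -/
def gLL (tau : Fin k → ℕ) (y m0 : ℕ) (v : Lt k →₀ ℕ) : Prop :=
  (∀ p ∈ v.support, 1 ≤ sz p) ∧ ln v = y ∧ xs v = m0 ∧ ∀ i, us v i = tau i

/-- The highest weight polynomials in the letter ring, `y` letters, killed by the translations
modulo fewer letters. -/
noncomputable def LL (tau : Fin k → ℕ) (y m0 : ℕ) : Submodule ℂ (Po k) :=
  UH (gLL tau y m0) ⊓ ((⨅ i : Fin k, LinearMap.ker (E1 i).toLinearMap) ⊓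
    (LinearMap.ker (DD0 (k := k)).toLinearMap ⊓ ⨅ i : Fin k, LinearMap.ker (DD i).toLinearMap))

/-- **[Q2a]** the letter ring. -/
def Q2a : Prop := ∀ (k V y m0 : ℕ) (tau : Fin k → ℕ), V + ∑ i, tau i ≤ y →
  Module.finrank ℂ (KK V tau y m0) ≤ Module.finrank ℂ (LL tau y m0)

/-- **[Q2b]** from letters to columns. -/
def Q2b : Prop := ∀ (k y m0 : ℕ) (tau : Fin k → ℕ),
  Module.finrank ℂ (LL tau y m0) ≤ Module.finrank ℂ (EE y (k + 1) (Fin.cons m0 tau))

theorem q2 (ha : Q2a) (hb : Q2b) : Q2 := fun k V y m0 tau h =>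
  (ha k V y m0 tau h).trans (hb k y m0 tau)

end Vale.Agent.P181.GN.H605
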