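import Vale.Agent.P181.GN.H605.Ops

set_option autoImplicit false

/-!
# P181, GN: a highest weight polynomial in the letters is determined by its value at `xi = e_1`
-/

open MvPolynomial

namespace Vale.Agent.P181.GN.H605

open Vale.Agent.P181.GN

variable {k : ℕ}

/-- The letter `xi_1`. -/
def x0 : Lt k := (1, 0)

/-- The letter `xi_(i + 2)`. -/
def xl (i : Fin k) : Lt k := (0, Pi.single i 1)

/-- The number of letters `xi_i`. -/
def nu (v : Lt k →₀ ℕ) : ℕ := ∑ i : Fin k, v (xl i)

lemma nu_add (v w : Lt k →₀ ℕ) : nu (v + w) = nu v + nu w := by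
  simp only [nu, Finsupp.add_apply, Finset.sum_add_distrib]

lemma nu_zero : nu (0 : Lt k →₀ ℕ) = 0 := by
  simp [nu]

lemma xl_inj {i j : Fin k} (h : xl i = xl j) : i = j := by
  by_contra hne
  have h1 := congrFun (congrArg Prod.snd h) i
  simp only [xl, Pi.single_eq_same, Pi.single_eq_of_ne hne] at h1
  exact one_ne_zero h1

lemma x0_ne (i : Fin k) : (x0 : Lt k) ≠ xl i := by
  intro h
  have h1 := congrArg Prod.fst h
  simp only [x0, xl] at h1
  exact one_ne_zero h1

lemma nu_single (p : Lt k) (n : ℕ) (h : ∀ i, p ≠ xl i) : nu (Finsupp.single p n) = 0 := by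
  apply Finset.sum_eq_zero
  intro i _
  exact Finsupp.single_eq_of_ne (fun h' => h i h'.symm)

lemma nu_single_xl (i : Fin k) : nu (Finsupp.single (xl i) 1) = 1 := by
  rw [nu, Finset.sum_eq_single i]
  · exact Finsupp.single_eq_same
  · intro j _ hj
    exact Finsupp.single_eq_of_ne (fun h' => hj (xl_inj h'))
  · intro h
    exact absurd (Finset.mem_univ _) h

lemma ln_add (v w : Lt k →₀ ℕ) : ln (v + w) = ln v + ln w :=
  Finsupp.sum_add_index' (fun _ => rfl) (fun _ _ _ => rfl)

lemma ln_single (p : Lt k) (n : ℕ) : ln (Finsupp.single p n) = n :=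
  Finsupp.sum_single_index rfl

/-- All monomials have at least `n` letters `xi_i`. -/
def II (k n : ℕ) : Submodule ℂ (Po k) where
  carrier := {f | ∀ v, coeff v f ≠ 0 → n ≤ nu v}
  zero_mem' := fun v hv => absurd (coeff_zero v) hv
  add_mem' := by
    intro f g hf hg v hv
    rw [coeff_add] at hv
    by_cases h : coeff v f = 0
    · rw [h, zero_add] at hv
      exact hg v hv
    · exact hf v h
  smul_mem' := by
    intro c f hf v hv
    rw [coeff_smul, smul_eq_mul] at hv
    exact hf v (right_ne_zero_of_mul hv)

lemma mem_II {n : ℕ} {f : Po k} : f ∈ II k n ↔ ∀ v, coeff v f ≠ 0 → n ≤ nu v := Iff.rfl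

lemma II_mono {m n : ℕ} (h : m ≤ n) {f : Po k} (hf : f ∈ II k n) : f ∈ II k m :=
  fun v hv => h.trans (hf v hv)

lemma II_mul {m n : ℕ} {f g : Po k} (hf : f ∈ II k m) (hg : g ∈ II k n) :
    f * g ∈ II k (m + n) := by
  classical
  intro v hv
  rw [coeff_mul] at hv
  obtain ⟨x, hx, hne⟩ := Finset.exists_ne_zero_of_sum_ne_zero hv
  have h1 := hf x.1 (left_ne_zero_of_mul hne)
  have h2 := hg x.2 (right_ne_zero_of_mul hne)
  have hx' : x.1 + x.2 = v := Finset.HasAntidiagonal.mem_antidiagonal.1 hx
  rw [← hx', nu_add]
  omega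

lemma II_monomial (v : Lt k →₀ ℕ) (c : ℂ) : monomial v c ∈ II k (nu v) := by
  classical
  intro w hw
  rw [coeff_monomial] at hw
  by_cases h : v = w
  · rw [h]
  · rw [if_neg h] at hw
    exact absurd rfl hw

lemma II_X (p : Lt k) : (X p : Po k) ∈ II k (nu (Finsupp.single p 1)) := II_monomial _ _

lemma II_der (D : Derivation ℂ (Po k) (Po k))
    (hD : ∀ p, D (X p) ∈ II k (nu (Finsupp.single p 1))) {n : ℕ} {f : Po k} (hf : f ∈ II k n) :
    D f ∈ II k n := by
  classical
  have h1 : ∀ v : Lt k →₀ ℕ, D (monomial v 1) ∈ II k (nu v) := by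
    intro v
    induction v using Finsupp.induction_linear with
    | zero =>
      have : (monomial (0 : Lt k →₀ ℕ) (1 : ℂ)) = (1 : Po k) := rfl
      rw [this, Derivation.map_one_eq_zero]
      exact zero_mem _
    | add v w hv hw =>
      have h2 : (monomial (v + w) (1 : ℂ) : Po k) = monomial v 1 * monomial w 1 := by
        rw [monomial_mul, one_mul]
      rw [h2, Derivation.leibniz, smul_eq_mul, smul_eq_mul, nu_add]
      apply add_mem
      · exact II_mul (II_monomial v 1) hw
      · rw [add_comm]
        exact II_mul (II_monomial w 1) hv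
    | single p n =>
      induction n with
      | zero =>
        have : (monomial (Finsupp.single p 0) (1 : ℂ)) = (1 : Po k) := by
          rw [Finsupp.single_zero]
          rfl
        rw [this, Derivation.map_one_eq_zero]
        exact zero_mem _
      | succ n ih =>
        have h2 : (monomial (Finsupp.single p (n + 1)) (1 : ℂ) : Po k) =
            monomial (Finsupp.single p n) 1 * X p := by
          rw [X, monomial_mul, one_mul, Finsupp.single_add]
        have h3 : nu (Finsupp.single p (n + 1)) =
            nu (Finsupp.single p n) + nu (Finsupp.single p 1) := by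
          rw [Finsupp.single_add, nu_add]
        rw [h2, Derivation.leibniz, smul_eq_mul, smul_eq_mul, h3]
        apply add_mem
        · exact II_mul (II_monomial _ 1) (hD p)
        · rw [add_comm]
          exact II_mul (II_X p) ih
  have h2 : D f = ∑ v ∈ f.support, coeff v f • D (monomial v 1) := by
    conv_lhs => rw [f.as_sum]
    rw [map_sum]
    apply Finset.sum_congr rfl
    intro v _
    rw [← Derivation.map_smul, smul_monomial, smul_eq_mul, mul_one]
  rw [h2]
  apply Submodule.sum_mem
  intro v hv
  exact Submodule.smul_mem _ _ (II_mono (hf v (mem_support_iff.1 hv)) (h1 v))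

/-- The letters of size one. -/
lemma sz_one (p : Lt k) (h : sz p = 1) : p = x0 ∨ ∃ i, p = xl i := by
  have hs : sz p = p.1 + ∑ i, p.2 i := rfl
  rcases Nat.eq_zero_or_pos p.1 with h0 | h0
  · right
    have h1 : ∑ i, p.2 i ≠ 0 := by omega
    obtain ⟨i, _, hi⟩ := Finset.exists_ne_zero_of_sum_ne_zero h1
    refine ⟨i, Prod.ext h0 ?_⟩
    have h2 := sum_sub_single p.2 i (by omega)
    have h3 : ∑ j, (p.2 - Pi.single i 1 : Fin k → ℕ) j = 0 := by omega
    rw [Finset.sum_eq_zero_iff] at h3
    funext j
    have h4 := h3 j (Finset.mem_univ _)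
    by_cases hj : j = i
    · subst hj
      have h5 := le_sum p.2 j
      simp only [xl, Pi.single_eq_same]
      omega
    · simp only [Pi.sub_apply, Pi.single_eq_of_ne hj] at h4
      simp only [xl, Pi.single_eq_of_ne hj]
      omega
  · left
    refine Prod.ext (by simp only [x0]; omega) ?_
    have h3 : ∑ j, p.2 j = 0 := by omega
    rw [Finset.sum_eq_zero_iff] at h3
    funext j
    exact h3 j (Finset.mem_univ _)

lemma sz_x0 : sz (x0 : Lt k) = 1 := by
  simp [sz, x0]

lemma sz_xl (i : Fin k) : sz (xl i) = 1 := by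
  simp [sz, xl]

lemma ev_x0 : ev (X (x0 : Lt k)) = 1 := by
  rw [ev_X, sz_x0, if_pos le_rfl]
  exact if_pos rfl

lemma ev_xl (i : Fin k) : ev (X (xl i)) = 0 := by
  rw [ev_X, sz_xl, if_pos le_rfl]
  exact if_neg (by simp [xl])

lemma ev_big (p : Lt k) (h : 2 ≤ sz p) : ev (X p) = X p := by
  rw [ev_X, if_neg (by omega)]

/-- `ev` on monomials with a letter `xi_i`. -/
lemma ev_mon_nu (w : Lt k →₀ ℕ) (c : ℂ) (h : nu w ≠ 0) : ev (monomial w c) = 0 := by
  obtain ⟨i, _, hi⟩ := Finset.exists_ne_zero_of_sum_ne_zero h
  rw [monomial_eq, map_mul, Finsupp.prod, map_prod]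
  rw [Finset.prod_eq_zero (Finsupp.mem_support_iff.2 hi), mul_zero]
  rw [map_pow, ev_xl, zero_pow hi]

/-- `ev` on monomials without. -/
lemma ev_mon (w : Lt k →₀ ℕ) (c : ℂ) (h : nu w = 0) (hw : ∀ p ∈ w.support, 1 ≤ sz p) :
    ev (monomial w c) = monomial (w.erase x0) c := by
  classical
  have h0 : ∀ i, w (xl i) = 0 := by
    intro i
    have h1 := Finset.sum_eq_zero_iff.1 h
    exact h1 i (Finset.mem_univ _)
  rw [monomial_eq, map_mul, monomial_eq]
  congr 1
  · exact AlgHom.commutes _ _
  rw [Finsupp.prod, map_prod]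
  have h2 : ∏ p ∈ w.support, ev (X p ^ w p) = w.prod (fun p n => ev (X p) ^ n) := by
    rw [Finsupp.prod]
    exact Finset.prod_congr rfl fun p _ => map_pow _ _ _
  rw [h2, ← Finsupp.mul_prod_erase' w x0 (fun p n => ev (X p) ^ n) (fun _ => pow_zero _)]
  rw [ev_x0, one_pow, one_mul]
  apply Finset.prod_congr rfl
  intro p hp
  rw [Finsupp.support_erase, Finset.mem_erase] at hp
  have h3 := hw p hp.2
  have h4 : 2 ≤ sz p := by
    by_contra h5
    rcases sz_one p (by omega) with h6 | ⟨i, h6⟩
    · exact hp.1 h6
    · rw [h6] at hp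
      exact Finsupp.mem_support_iff.1 hp.2 (h0 i)
  show ev (X p) ^ _ = X p ^ _
  rw [ev_big p h4]

/-- **The value at `xi = e_1` determines a highest weight polynomial.** -/
theorem det (y : ℕ) (H : Po k)
    (hH : ∀ v, coeff v H ≠ 0 → (∀ p ∈ v.support, 1 ≤ sz p) ∧ ln v = y)
    (hE : ∀ i, E1 i H = 0) (hev : ev H = 0) : H = 0 := by
  classical
  have main : ∀ n : ℕ, ∀ v, nu v = n → coeff v H = 0 := by
    intro n
    induction n using Nat.strong_induction_on with
    | _ n ih =>
    intro v hv
    rcases Nat.eq_zero_or_pos n with h0 | h0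
    · by_contra hne
      obtain ⟨hv1, hv2⟩ := hH v hne
      apply hne
      have h1 : coeff (v.erase x0) (ev H) = coeff v H := by
        conv_lhs => rw [H.as_sum]
        rw [map_sum, coeff_sum, Finset.sum_eq_single v]
        · rw [ev_mon v _ (hv.trans h0) hv1, coeff_monomial, if_pos rfl]
        · intro w hw hwv
          obtain ⟨hw1, hw2⟩ := hH w (mem_support_iff.1 hw)
          by_cases hn : nu w = 0
          · rw [ev_mon w _ hn hw1, coeff_monomial, if_neg]
            intro h2
            apply hwv
            have e1 := Finsupp.erase_add_single x0 w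
            have e2 := Finsupp.erase_add_single x0 v
            have e3 : ln w = ln (w.erase x0) + w x0 := by
              conv_lhs => rw [← e1]
              rw [ln_add, ln_single]
            have e4 : ln v = ln (v.erase x0) + v x0 := by
              conv_lhs => rw [← e2]
              rw [ln_add, ln_single]
            have e5 : w x0 = v x0 := by
              rw [h2] at e3
              omega
            rw [← e1, ← e2, h2, e5]
          · rw [ev_mon_nu w _ hn, coeff_zero]
        · intro hv3
          rw [notMem_support_iff.1 hv3, monomial_zero, map_zero, coeff_zero]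
      rw [← h1, hev, coeff_zero]
    · have h1 : nu v ≠ 0 := by omega
      obtain ⟨i, _, hi⟩ := Finset.exists_ne_zero_of_sum_ne_zero h1
      obtain ⟨m, hm⟩ : ∃ m, v = m + Finsupp.single (xl i) 1 := by
        refine ⟨v - Finsupp.single (xl i) 1, ?_⟩
        rw [tsub_add_cancel_of_le]
        rw [Finsupp.single_le_iff]
        omega
      have hnm : nu m + 1 = n := by
        rw [hm, nu_add, nu_single_xl] at hv
        exact hv
      have hI : H ∈ II k n := by
        intro w hw
        by_contra hc
        exact hw (ih (nu w) (by omega) w rfl)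
      let D : Derivation ℂ (Po k) (Po k) := E1 i - (X x0 : Po k) • pderiv (xl i)
      have hDa : ∀ f, D f = E1 i f - X x0 * pderiv (xl i) f := fun f => rfl
      have hD : D H ∈ II k n := by
        apply II_der D _ hI
        intro p
        rw [hDa, E1_X]
        by_cases hp : p = xl i
        · rw [hp, pderiv_X_self, mul_one]
          have e1 : ((xl i : Lt k).2 i : ℂ) = 1 := by simp [xl]
          have e2 : ((xl i : Lt k).1 + 1, (xl i : Lt k).2 - Pi.single i 1) = (x0 : Lt k) := by
            simp [xl, x0]
          rw [e1, e2, one_smul, sub_self]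
          exact zero_mem _
        · rw [pderiv_X_of_ne hp, mul_zero, sub_zero]
          by_cases hq : ∃ j, p = xl j
          · obtain ⟨j, hj⟩ := hq
            have hij : i ≠ j := fun h => hp (by rw [hj, h])
            have e1 : (p.2 i : ℂ) = 0 := by
              rw [hj]
              simp [xl, Pi.single_eq_of_ne hij]
            rw [e1, zero_smul]
            exact zero_mem _
          · push Not at hq
            rw [nu_single p 1 hq]
            exact fun v _ => Nat.zero_le _
      have h3 : coeff (m + Finsupp.single x0 1) (D H) = 0 := by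
        by_contra hc
        have h4 := hD _ hc
        rw [nu_add, nu_single x0 1 (fun i => x0_ne i)] at h4
        omega
      rw [hDa, hE, zero_sub, coeff_neg, neg_eq_zero, mul_comm, coeff_mul_X, coeff_pderiv,
        ← hm] at h3
      refine (mul_eq_zero.1 h3).resolve_right ?_
      have h5 : (m (xl i) : ℂ) + 1 = ((m (xl i) + 1 : ℕ) : ℂ) := by push_cast; ring
      rw [h5]
      exact Nat.cast_ne_zero.2 (by omega)
  ext v
  rw [main (nu v) v rfl, coeff_zero]

end Vale.Agent.P181.GN.H605
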