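import Vale.Agent.P181.GN.H605.Det
import Mathlib.RingTheory.MvPolynomial.WeightedHomogeneous
import Mathlib.RingTheory.MvPolynomial.Basic

set_option autoImplicit false

/-!
# P181, GN: the lift from `xi = e_1` to a highest weight polynomial
-/

open MvPolynomial

namespace Vale.Agent.P181.GN.H605

open Vale.Agent.P181.GN

variable {k : ℕ}

/-- A derivation which shifts a weight on the letters shifts it everywhere. -/
lemma wh_der {w : Lt k → ℤ} (D : Derivation ℂ (Po k) (Po k)) (s : ℤ)
    (hD : ∀ p, IsWeightedHomogeneous w (D (X p)) (w p + s)) {n : ℤ} {f : Po k}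
    (hf : IsWeightedHomogeneous w f n) : IsWeightedHomogeneous w (D f) (n + s) := by
  classical
  have h1 : ∀ v : Lt k →₀ ℕ,
      IsWeightedHomogeneous w (D (monomial v 1)) (Finsupp.weight w v + s) := by
    intro v
    induction v using Finsupp.induction_linear with
    | zero =>
      have : (monomial (0 : Lt k →₀ ℕ) (1 : ℂ)) = (1 : Po k) := rfl
      rw [this, Derivation.map_one_eq_zero]
      exact isWeightedHomogeneous_zero ℂ w _
    | add v v' hv hv' =>
      have h2 : (monomial (v + v') (1 : ℂ) : Po k) = monomial v 1 * monomial v' 1 := by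
        rw [monomial_mul, one_mul]
      rw [h2, Derivation.leibniz, smul_eq_mul, smul_eq_mul, map_add]
      apply IsWeightedHomogeneous.add
      · have h3 := (isWeightedHomogeneous_monomial w v (1 : ℂ) rfl).mul hv'
        rwa [← add_assoc] at h3
      · have h3 := (isWeightedHomogeneous_monomial w v' (1 : ℂ) rfl).mul hv
        rwa [← add_assoc, add_comm (Finsupp.weight w v')] at h3
    | single p n =>
      induction n with
      | zero =>
        have : (monomial (Finsupp.single p 0) (1 : ℂ)) = (1 : Po k) := by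
          rw [Finsupp.single_zero]
          rfl
        rw [this, Derivation.map_one_eq_zero]
        exact isWeightedHomogeneous_zero ℂ w _
      | succ n ih =>
        have h2 : (monomial (Finsupp.single p (n + 1)) (1 : ℂ) : Po k) =
            monomial (Finsupp.single p n) 1 * X p := by
          rw [X, monomial_mul, one_mul, Finsupp.single_add]
        have h4 : Finsupp.weight w (Finsupp.single p 1) = w p := by
          rw [Finsupp.weight_single, one_smul]
        have h3 : Finsupp.weight w (Finsupp.single p (n + 1)) =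
            Finsupp.weight w (Finsupp.single p n) + w p := by
          rw [Finsupp.single_add, map_add, h4]
        rw [h2, Derivation.leibniz, smul_eq_mul, smul_eq_mul, h3]
        apply IsWeightedHomogeneous.add
        · have h5 := (isWeightedHomogeneous_monomial w (Finsupp.single p n) (1 : ℂ) rfl).mul (hD p)
          rwa [← add_assoc] at h5
        · have h5 := (isWeightedHomogeneous_X ℂ w p).mul ih
          rwa [← add_assoc, add_comm (w p)] at h5
  have h2 : D f = ∑ v ∈ f.support, coeff v f • D (monomial v 1) := by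
    conv_lhs => rw [f.as_sum]
    rw [map_sum]
    apply Finset.sum_congr rfl
    intro v _
    rw [← Derivation.map_smul, smul_monomial, smul_eq_mul, mul_one]
  rw [h2]
  apply IsWeightedHomogeneous.sum
  intro v hv
  have h3 := h1 v
  rw [hf (mem_support_iff.1 hv)] at h3
  exact Submodule.smul_mem (weightedHomogeneousSubmodule ℂ w (n + s)) _ h3

/-- A weight shifted by `s i` by `E1 i`. -/
def Good (w : Lt k → ℤ) (s : Fin k → ℤ) : Prop :=
  ∀ p i, 1 ≤ p.2 i → w (p.1 + 1, p.2 - Pi.single i 1) = w p + s i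

lemma smul_wh {w : Lt k → ℤ} {n : ℤ} {f : Po k} (c : ℂ) (hf : IsWeightedHomogeneous w f n) :
    IsWeightedHomogeneous w (c • f) n :=
  Submodule.smul_mem (weightedHomogeneousSubmodule ℂ w n) _ hf

lemma E1_wh {w : Lt k → ℤ} {s : Fin k → ℤ} (hw : Good w s) (i : Fin k) {n : ℤ} {f : Po k}
    (hf : IsWeightedHomogeneous w f n) : IsWeightedHomogeneous w (E1 i f) (n + s i) := by
  apply wh_der _ _ _ hf
  intro p
  rw [E1_X]
  rcases Nat.eq_zero_or_pos (p.2 i) with h | h
  · rw [h, Nat.cast_zero, zero_smul]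
    exact isWeightedHomogeneous_zero ℂ w _
  · apply smul_wh
    have h1 := isWeightedHomogeneous_X ℂ w (p.1 + 1, p.2 - Pi.single i 1)
    rwa [hw p i h] at h1

lemma pow_wh {w : Lt k → ℤ} {s : Fin k → ℤ} (hw : Good w s) (i : Fin k) {n : ℤ} {f : Po k}
    (hf : IsWeightedHomogeneous w f n) (m : ℕ) :
    IsWeightedHomogeneous w (((E1 i).toLinearMap ^ m) f) (n + m * s i) := by
  induction m with
  | zero =>
    rw [Nat.cast_zero, zero_mul, add_zero]
    exact hf
  | succ m ih =>
    rw [pow_succ', Module.End.mul_apply]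
    have h1 := E1_wh hw i ih
    have h2 : n + ((m + 1 : ℕ) : ℤ) * s i = n + m * s i + s i := by push_cast; ring
    rw [h2]
    exact h1

/-- Too many raisings. -/
lemma pow_zero_of {t : ℕ} (i : Fin k) {f : Po k}
    (hf : IsWeightedHomogeneous (fun p : Lt k => (p.2 i : ℤ)) f t) :
    ((E1 i).toLinearMap ^ (t + 1)) f = 0 := by
  have hg : Good (fun p : Lt k => (p.2 i : ℤ)) (fun j => if j = i then -1 else 0) := by
    intro p j hj
    by_cases hji : j = i
    · subst hji
      simp only [Pi.sub_apply, Pi.single_eq_same, if_true]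
      omega
    · simp only [Pi.sub_apply, Pi.single_eq_of_ne (Ne.symm hji), if_neg hji]
      omega
  have h1 := pow_wh hg i hf (t + 1)
  rw [if_pos rfl] at h1
  ext v
  rw [coeff_zero]
  by_contra hne
  have h2 := h1 hne
  have h3 : (0 : ℤ) ≤ Finsupp.weight (fun p : Lt k => (p.2 i : ℤ)) v := by
    rw [Finsupp.weight_apply, Finsupp.sum]
    apply Finset.sum_nonneg
    intro p _
    positivity
  rw [h2] at h3
  push_cast at h3
  omega

/-- One step of the lift. -/
noncomputable def PP (t : ℕ) (i : Fin k) : Po k →ₗ[ℂ] Po k :=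
  ∑ n ∈ Finset.range (t + 1), ((-1 : ℂ) ^ n / (n.factorial : ℂ)) •
    (LinearMap.mulLeft ℂ ((X (xl i) : Po k) ^ n * X x0 ^ (t - n))) ∘ₗ ((E1 i).toLinearMap ^ n)

lemma PP_apply (t : ℕ) (i : Fin k) (f : Po k) :
    PP t i f = ∑ n ∈ Finset.range (t + 1), ((-1 : ℂ) ^ n / (n.factorial : ℂ)) •
      ((X (xl i) : Po k) ^ n * X x0 ^ (t - n) * ((E1 i).toLinearMap ^ n) f) := by
  rw [PP, LinearMap.sum_apply]
  rfl

lemma PP_wh {w : Lt k → ℤ} {s : Fin k → ℤ} (hw : Good w s) (t : ℕ) (i : Fin k) {n : ℤ} {f : Po k}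
    (hf : IsWeightedHomogeneous w f n) : IsWeightedHomogeneous w (PP t i f) (n + t * w x0) := by
  have h0 : w x0 = w (xl i) + s i := by
    rw [← hw (xl i) i (by simp [xl])]
    congr 1
    simp [xl, x0]
  rw [PP_apply]
  apply IsWeightedHomogeneous.sum
  intro m hm
  rw [Finset.mem_range] at hm
  apply smul_wh
  have h1 := ((isWeightedHomogeneous_X ℂ w (xl i)).pow m).mul
    ((isWeightedHomogeneous_X ℂ w x0).pow (t - m))
  have h2 := h1.mul (pow_wh hw i hf m)
  have h3 : n + t * w x0 = m • w (xl i) + (t - m) • w x0 + (n + m * s i) := by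
    rw [nsmul_eq_mul, nsmul_eq_mul, Nat.cast_sub (by omega), h0]
    ring
  rw [h3]
  exact h2

lemma ev_PP (t : ℕ) (i : Fin k) (f : Po k) : ev (PP t i f) = ev f := by
  rw [PP_apply, map_sum, Finset.sum_eq_single 0]
  · rw [map_smul, map_mul, map_mul, map_pow, map_pow, ev_x0, one_pow, pow_zero, pow_zero,
      Nat.factorial_zero, Nat.cast_one, div_one, one_smul, one_mul, one_mul, pow_zero]
    rfl
  · intro m _ hm
    rw [map_smul, map_mul, map_mul, map_pow, ev_xl, zero_pow hm, zero_mul, zero_mul, smul_zero]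
  · intro h
    exact absurd (Finset.mem_range.2 (Nat.succ_pos t)) h

lemma E1_x0 (i : Fin k) : E1 i (X x0) = 0 := by
  rw [E1_X]
  simp [x0]

lemma E1_xl (i : Fin k) : E1 i (X (xl i)) = X x0 := by
  rw [E1_X]
  have e1 : ((xl i : Lt k).2 i : ℂ) = 1 := by simp [xl]
  have e2 : ((xl i : Lt k).1 + 1, (xl i : Lt k).2 - Pi.single i 1) = (x0 : Lt k) := by
    simp [xl, x0]
  rw [e1, e2, one_smul]

lemma E1_xl_ne {i j : Fin k} (h : i ≠ j) : E1 j (X (xl i)) = 0 := by
  rw [E1_X]
  have e1 : ((xl i : Lt k).2 j : ℂ) = 0 := by simp [xl, Pi.single_eq_of_ne (Ne.symm h)]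
  rw [e1, zero_smul]

lemma der_pow_zero (D : Derivation ℂ (Po k) (Po k)) (a : Po k) (h : D a = 0) (n : ℕ) :
    D (a ^ n) = 0 := by
  rw [Derivation.leibniz_pow, h, smul_zero, smul_zero]

lemma E1_pow_comm (i j : Fin k) (n : ℕ) (f : Po k) :
    E1 j (((E1 i).toLinearMap ^ n) f) = ((E1 i).toLinearMap ^ n) (E1 j f) := by
  induction n with
  | zero => rfl
  | succ n ih =>
    rw [pow_succ', Module.End.mul_apply, Module.End.mul_apply, ← ih]
    exact E1_E1 j i _

lemma E1_PP_ne {i j : Fin k} (h : i ≠ j) (t : ℕ) (f : Po k) :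
    E1 j (PP t i f) = PP t i (E1 j f) := by
  rw [PP_apply, PP_apply, map_sum]
  apply Finset.sum_congr rfl
  intro n _
  rw [Derivation.map_smul, Derivation.leibniz, Derivation.leibniz,
    der_pow_zero _ _ (E1_x0 j), der_pow_zero _ _ (E1_xl_ne h), smul_zero, smul_zero, add_zero,
    smul_zero, add_zero, smul_eq_mul, E1_pow_comm]

lemma E1_PP (t : ℕ) (i : Fin k) (f : Po k) (hf : ((E1 i).toLinearMap ^ (t + 1)) f = 0) :
    E1 i (PP t i f) = 0 := by
  have hterm : ∀ n, E1 i (((-1 : ℂ) ^ n / (n.factorial : ℂ)) •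
      ((X (xl i) : Po k) ^ n * X x0 ^ (t - n) * ((E1 i).toLinearMap ^ n) f)) =
      ((-1 : ℂ) ^ n / (n.factorial : ℂ)) •
        ((X (xl i) : Po k) ^ n * X x0 ^ (t - n) * ((E1 i).toLinearMap ^ (n + 1)) f) +
      ((-1 : ℂ) ^ n / (n.factorial : ℂ)) •
        ((n : ℂ) • ((X (xl i) : Po k) ^ (n - 1) * X x0 ^ (t - n + 1) *
          ((E1 i).toLinearMap ^ n) f)) := by
    intro n
    rw [Derivation.map_smul, Derivation.leibniz, Derivation.leibniz,
      der_pow_zero _ _ (E1_x0 i), Derivation.leibniz_pow, E1_xl, smul_zero, zero_add,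
      pow_succ' _ n, Module.End.mul_apply, ← smul_add]
    congr 1
    rw [smul_eq_mul, smul_eq_mul, smul_eq_mul, smul_eq_mul, nsmul_eq_mul, smul_eq_C_mul,
      map_natCast]
    show _ * (E1 i) _ + _ = _ * (E1 i) _ + _
    ring
  rw [PP_apply, map_sum, Finset.sum_congr rfl (fun n _ => hterm n), Finset.sum_add_distrib,
    Finset.sum_range_succ, hf, mul_zero, smul_zero, add_zero, Finset.sum_range_succ']
  rw [Nat.cast_zero, zero_smul, smul_zero, add_zero, ← Finset.sum_add_distrib]
  apply Finset.sum_eq_zero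
  intro n hn
  rw [Finset.mem_range] at hn
  rw [Nat.add_sub_cancel, show t - (n + 1) + 1 = t - n by omega, smul_smul, ← add_smul]
  have h1 : (-1 : ℂ) ^ n / (n.factorial : ℂ) +
      (-1 : ℂ) ^ (n + 1) / ((n + 1).factorial : ℂ) * ((n + 1 : ℕ) : ℂ) = 0 := by
    rw [Nat.factorial_succ, Nat.cast_mul]
    have h2 : ((n + 1 : ℕ) : ℂ) ≠ 0 := Nat.cast_ne_zero.2 (Nat.succ_ne_zero n)
    have h3 : (n.factorial : ℂ) ≠ 0 := Nat.cast_ne_zero.2 (Nat.factorial_ne_zero n)
    field_simp
    ring
  rw [h1, zero_smul]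

/-- The lift along a list of rows. -/
noncomputable def PL (tau : Fin k → ℕ) : List (Fin k) → (Po k →ₗ[ℂ] Po k)
  | [] => LinearMap.id
  | i :: l => PP (tau i) i ∘ₗ PL tau l

lemma PL_cons (tau : Fin k → ℕ) (i : Fin k) (l : List (Fin k)) (f : Po k) :
    PL tau (i :: l) f = PP (tau i) i (PL tau l f) := rfl

lemma PL_wh {w : Lt k → ℤ} {s : Fin k → ℤ} (hw : Good w s) (tau : Fin k → ℕ)
    (l : List (Fin k)) {n : ℤ} {f : Po k} (hf : IsWeightedHomogeneous w f n) :
    IsWeightedHomogeneous w (PL tau l f) (n + ((l.map tau).sum : ℕ) * w x0) := by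
  induction l with
  | nil =>
    rw [List.map_nil, List.sum_nil, Nat.cast_zero, zero_mul, add_zero]
    exact hf
  | cons i l ih =>
    rw [PL_cons]
    have h1 := PP_wh hw (tau i) i ih
    have h2 : n + (((i :: l).map tau).sum : ℕ) * w x0 =
        n + ((l.map tau).sum : ℕ) * w x0 + tau i * w x0 := by
      rw [List.map_cons, List.sum_cons]
      push_cast
      ring
    rw [h2]
    exact h1

lemma ev_PL (tau : Fin k → ℕ) (l : List (Fin k)) (f : Po k) : ev (PL tau l f) = ev f := by
  induction l with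
  | nil => rfl
  | cons i l ih => rw [PL_cons, ev_PP, ih]

lemma good_us (j : Fin k) :
    Good (fun p : Lt k => (p.2 j : ℤ)) (fun i => if i = j then -1 else 0) := by
  intro p i hi
  by_cases hij : i = j
  · subst hij
    simp only [Pi.sub_apply, Pi.single_eq_same, if_true]
    omega
  · simp only [Pi.sub_apply, Pi.single_eq_of_ne (Ne.symm hij), if_neg hij]
    omega

lemma E1_PL (tau : Fin k → ℕ) (l : List (Fin k)) (hl : l.Nodup) {f : Po k}
    (hf : ∀ j, IsWeightedHomogeneous (fun p : Lt k => (p.2 j : ℤ)) f (tau j)) :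
    ∀ j ∈ l, E1 j (PL tau l f) = 0 := by
  induction l with
  | nil => exact fun j hj => absurd hj List.not_mem_nil
  | cons i l ih =>
    rw [List.nodup_cons] at hl
    intro j hj
    rw [PL_cons]
    by_cases hij : i = j
    · subst hij
      apply E1_PP
      apply pow_zero_of
      have h1 := PL_wh (good_us i) tau l (hf i)
      have h2 : ((x0 : Lt k).2 i : ℤ) = 0 := rfl
      rw [h2, mul_zero, add_zero] at h1
      exact h1
    · rw [E1_PP_ne hij, ih hl.2 j ((List.mem_cons.1 hj).resolve_left (Ne.symm hij)), map_zero]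

end Vale.Agent.P181.GN.H605
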