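import Vale.Agent.P181.GN.H605.Mid
import Mathlib.RingTheory.Derivation.Lie

set_option autoImplicit false

/-!
# P181, GN: the commutators in the letter ring
-/

open MvPolynomial

namespace Vale.Agent.P181.GN.H605

open Vale.Agent.P181.GN

variable {k : ℕ}

lemma E1_X (i : Fin k) (p : Lt k) :
    E1 i (X p) = (p.2 i : ℂ) • X (p.1 + 1, p.2 - Pi.single i 1) := mkDerivation_X _ _ _

lemma EU_X (r i : Fin k) (p : Lt k) :
    EU r i (X p) = (p.2 i : ℂ) • X (p.1, p.2 - Pi.single i 1 + Pi.single r 1) :=
  mkDerivation_X _ _ _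

lemma DD0_X (p : Lt k) :
    DD0 (X p) = if sz p ≤ 1 then 0 else (p.1 : ℂ) • X (p.1 - 1, p.2) := mkDerivation_X _ _ _

lemma DD_X (i : Fin k) (p : Lt k) :
    DD i (X p) = if sz p ≤ 1 then 0 else (p.2 i : ℂ) • X (p.1, p.2 - Pi.single i 1) :=
  mkDerivation_X _ _ _

lemma CD0_X (p : Lt k) :
    CD0 (X p) = if sz p = 2 then (if p.1 = 2 then 2 else 0)
      else (p.1 : ℂ) • X (p.1 - 1, p.2) := mkDerivation_X _ _ _

lemma CD_X (i : Fin k) (p : Lt k) :
    CD i (X p) = if sz p = 2 then (if p.1 = 1 ∧ p.2 i = 1 then 1 else 0)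
      else (p.2 i : ℂ) • X (p.1, p.2 - Pi.single i 1) := mkDerivation_X _ _ _

lemma sum_sub_single (f : Fin k → ℕ) (i : Fin k) (h : 1 ≤ f i) :
    ∑ j, (f - Pi.single i 1 : Fin k → ℕ) j + 1 = ∑ j, f j := by
  classical
  have h1 : f = (f - Pi.single i 1) + Pi.single i 1 := by
    funext j
    by_cases hj : j = i
    · subst hj
      simp only [Pi.add_apply, Pi.sub_apply, Pi.single_eq_same]
      omega
    · simp only [Pi.add_apply, Pi.sub_apply, Pi.single_eq_of_ne hj]
      omega
  conv_rhs => rw [h1]
  simp only [Pi.add_apply, Finset.sum_add_distrib, Finset.sum_pi_single', Finset.mem_univ,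
    if_true]

lemma le_sum (f : Fin k → ℕ) (i : Fin k) : f i ≤ ∑ j, f j :=
  Finset.single_le_sum (f := f) (fun _ _ => Nat.zero_le _) (Finset.mem_univ i)

lemma sz_E1 (p : Lt k) (i : Fin k) (h : 1 ≤ p.2 i) :
    sz (p.1 + 1, p.2 - Pi.single i 1) = sz p := by
  have h1 := sum_sub_single p.2 i h
  simp only [sz]
  omega

lemma sz_EU (p : Lt k) (r i : Fin k) (h : 1 ≤ p.2 i) :
    sz (p.1, p.2 - Pi.single i 1 + Pi.single r 1) = sz p := by
  have h1 := sum_sub_single p.2 i h
  simp only [sz, Pi.add_apply, Finset.sum_add_distrib, Finset.sum_pi_single', Finset.mem_univ,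
    if_true]
  omega

lemma sz_D (p : Lt k) (i : Fin k) (h : 1 ≤ p.2 i) :
    sz (p.1, p.2 - Pi.single i 1) + 1 = sz p := by
  have h1 := sum_sub_single p.2 i h
  simp only [sz]
  omega

/-- Two derivations which agree on the letters up to a third one. -/
lemma comm_of (A B D : Derivation ℂ (Po k) (Po k))
    (h : ∀ p, A (B (X p)) - B (A (X p)) = D (X p)) (f : Po k) : A (B f) - B (A f) = D f := by
  have h1 : ⁅A, B⁆ = D := by
    apply derivation_ext
    intro p
    rw [Derivation.commutator_apply]
    exact h p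
  rw [← h1, Derivation.commutator_apply]

lemma E1_E1 (i j : Fin k) (f : Po k) : E1 i (E1 j f) = E1 j (E1 i f) := by
  have h := comm_of (E1 i) (E1 j) 0 (by
    intro p
    rw [E1_X, E1_X, Derivation.map_smul, Derivation.map_smul, E1_X, E1_X]
    by_cases hij : i = j
    · subst hij
      rw [sub_self]
      rfl
    · simp only [Pi.sub_apply, Pi.single_eq_of_ne hij, Pi.single_eq_of_ne (Ne.symm hij),
        Nat.sub_zero, smul_smul]
      rw [mul_comm (p.2 j : ℂ), tsub_right_comm, sub_self]
      rfl) f
  exact sub_eq_zero.1 h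

lemma E1_DD (i l : Fin k) (f : Po k) : E1 i (DD l f) = DD l (E1 i f) := by
  have h := comm_of (E1 i) (DD l) 0 (by
    intro p
    rw [DD_X, E1_X, Derivation.map_smul, DD_X]
    show _ = (0 : Po k)
    by_cases h0 : p.2 i = 0
    · have h1 : (p.2 - Pi.single l 1 : Fin k → ℕ) i = 0 := by
        simp only [Pi.sub_apply]
        omega
      rw [h0, Nat.cast_zero, zero_smul, sub_zero]
      split_ifs
      · rw [map_zero]
      · rw [Derivation.map_smul, E1_X]
        simp only
        rw [h1, Nat.cast_zero, zero_smul, smul_zero]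
    · have h2 : sz (p.1 + 1, p.2 - Pi.single i 1) = sz p := sz_E1 p i (by omega)
      rw [h2]
      split_ifs
      · rw [map_zero, smul_zero, sub_zero]
      · rw [Derivation.map_smul, E1_X]
        simp only [smul_smul]
        rw [tsub_right_comm]
        have h3 : (p.2 l : ℂ) * (((p.2 - Pi.single l 1 : Fin k → ℕ) i : ℕ) : ℂ) =
            (p.2 i : ℂ) * (((p.2 - Pi.single i 1 : Fin k → ℕ) l : ℕ) : ℂ) := by
          by_cases hil : i = l
          · subst hil
            rfl
          · simp only [Pi.sub_apply, Pi.single_eq_of_ne hil, Pi.single_eq_of_ne (Ne.symm hil),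
              Nat.sub_zero]
            ring
        rw [h3, sub_self]) f
  exact sub_eq_zero.1 h

lemma E1_DD0 (i : Fin k) (f : Po k) : E1 i (DD0 f) - DD0 (E1 i f) = - DD i f := by
  have h := comm_of (E1 i) DD0 (-(DD i)) (by
    intro p
    rw [DD0_X, E1_X, Derivation.map_smul, DD0_X]
    show _ = - DD i (X p)
    rw [DD_X]
    by_cases h0 : p.2 i = 0
    · rw [h0, Nat.cast_zero, zero_smul, zero_smul, sub_zero]
      split_ifs
      · rw [map_zero, neg_zero]
      · rw [Derivation.map_smul, E1_X]
        simp only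
        rw [h0, Nat.cast_zero, zero_smul, smul_zero, neg_zero]
    · have h2 : sz (p.1 + 1, p.2 - Pi.single i 1) = sz p := sz_E1 p i (by omega)
      rw [h2]
      split_ifs
      · rw [map_zero, smul_zero, sub_zero, neg_zero]
      · rw [Derivation.map_smul, E1_X]
        simp only [smul_smul, Nat.add_sub_cancel]
        rcases Nat.eq_zero_or_pos p.1 with h3 | h3
        · rw [h3]
          push_cast
          rw [zero_mul, zero_smul, zero_sub, mul_one]
        · rw [show p.1 - 1 + 1 = p.1 by omega, ← sub_smul, ← neg_smul]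
          congr 1
          push_cast
          ring) f
  rw [h]
  rfl

lemma EU_E1 (r i l : Fin k) (hri : r < i) (f : Po k) :
    EU r i (E1 l f) - E1 l (EU r i f) = if l = r then - E1 i f else 0 := by
  have h := comm_of (EU r i) (E1 l) (if l = r then -(E1 i) else 0) (by
    intro p
    rw [EU_X, E1_X, Derivation.map_smul, Derivation.map_smul, EU_X, E1_X]
    have hne : r ≠ i := hri.ne
    simp only [smul_smul, Pi.add_apply, Pi.sub_apply]
    by_cases hlr : l = r
    · subst hlr
      rw [if_pos rfl]
      show _ = - E1 i (X p)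
      rw [E1_X, Pi.single_eq_of_ne hne, Pi.single_eq_of_ne hne.symm, Pi.single_eq_same,
        Nat.sub_zero, Nat.sub_zero]
      have h1 : p.2 - Pi.single i 1 + Pi.single l 1 - Pi.single l 1 = p.2 - Pi.single i 1 :=
        add_tsub_cancel_right _ _
      rw [h1]
      rcases Nat.eq_zero_or_pos (p.2 l) with h2 | h2
      · rw [h2]
        push_cast
        rw [zero_mul, zero_smul, zero_sub, mul_one]
      · have h3 : p.2 - Pi.single l 1 - Pi.single i 1 + Pi.single l 1 = p.2 - Pi.single i 1 := by
          funext j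
          simp only [Pi.add_apply, Pi.sub_apply]
          by_cases hj : j = l
          · subst hj
            rw [Pi.single_eq_same, Pi.single_eq_of_ne hne]
            omega
          · rw [Pi.single_eq_of_ne hj]
            omega
        rw [h3, ← sub_smul, ← neg_smul]
        congr 1
        push_cast
        ring
    · rw [if_neg hlr]
      show _ = (0 : Po k)
      have h1 : p.2 - Pi.single l 1 - Pi.single i 1 + Pi.single r 1 =
          p.2 - Pi.single i 1 + Pi.single r 1 - Pi.single l 1 := by
        funext j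
        simp only [Pi.add_apply, Pi.sub_apply]
        by_cases hj : j = r
        · subst hj
          rw [Pi.single_eq_same, Pi.single_eq_of_ne (Ne.symm hlr), Pi.single_eq_of_ne hne]
          omega
        · rw [Pi.single_eq_of_ne hj]
          omega
      rw [h1, ← sub_smul]
      have h2 : (p.2 l : ℂ) * ((p.2 i - (Pi.single l 1 : Fin k → ℕ) i : ℕ) : ℂ) -
          (p.2 i : ℂ) * ((p.2 l - (Pi.single i 1 : Fin k → ℕ) l +
            (Pi.single r 1 : Fin k → ℕ) l : ℕ) : ℂ) = 0 := by
        rw [Pi.single_eq_of_ne hlr, add_zero]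
        by_cases hli : l = i
        · subst hli
          ring
        · rw [Pi.single_eq_of_ne hli, Pi.single_eq_of_ne (Ne.symm hli)]
          simp only [Nat.sub_zero]
          ring
      rw [h2, zero_smul]) f
  rw [h]
  split_ifs <;> rfl

/-- The evaluation at `xi = e_1`. -/
noncomputable def ev : Po k →ₐ[ℂ] Po k :=
  aeval fun p => if sz p ≤ 1 then (if p.1 = 1 then 1 else 0) else X p

lemma ev_X (p : Lt k) : ev (X p) = if sz p ≤ 1 then (if p.1 = 1 then 1 else 0) else X p :=
  aeval_X _ _

lemma ev_der (D D' : Derivation ℂ (Po k) (Po k)) (h : ∀ p, ev (D (X p)) = D' (ev (X p)))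
    (f : Po k) : ev (D f) = D' (ev f) := by
  induction f using MvPolynomial.induction_on with
  | C c =>
    have h1 : (C c : Po k) = algebraMap ℂ _ c := rfl
    rw [h1, Derivation.map_algebraMap, AlgHom.commutes, Derivation.map_algebraMap, map_zero]
  | add f g hf hg => rw [map_add, map_add, map_add, map_add, hf, hg]
  | mul_X f p hf =>
    rw [Derivation.leibniz, map_mul, Derivation.leibniz, map_add, smul_eq_mul, smul_eq_mul,
      map_mul, map_mul, h, hf]
    rfl

lemma der_ite01 (D : Derivation ℂ (Po k) (Po k)) (P : Prop) [Decidable P] :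
    D (if P then 1 else 0) = 0 := by
  split_ifs
  · exact Derivation.map_one_eq_zero _
  · exact map_zero _

lemma ev_DD0 (f : Po k) : ev (DD0 f) = CD0 (ev f) := by
  apply ev_der
  intro p
  rw [DD0_X, ev_X]
  by_cases h1 : sz p ≤ 1
  · rw [if_pos h1, if_pos h1, map_zero, der_ite01]
  · rw [if_neg h1, if_neg h1, CD0_X, map_smul, ev_X]
    have hs : sz p = p.1 + ∑ i, p.2 i := rfl
    by_cases h5 : sz p = 2
    · rw [if_pos h5]
      by_cases h6 : p.1 = 2
      · have e1 : (if sz (p.1 - 1, p.2) ≤ 1 then (if (p.1 - 1, p.2).1 = 1 then (1 : Po k) else 0)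
            else X (p.1 - 1, p.2)) = 1 := by
          rw [if_pos (by simp only [sz]; omega), if_pos (by simp only; omega)]
        rw [e1, if_pos h6, h6, smul_eq_C_mul, mul_one]
        exact map_ofNat C 2
      · rw [if_neg h6]
        rcases Nat.eq_zero_or_pos p.1 with h3 | h3
        · rw [h3, Nat.cast_zero, zero_smul]
        · have e1 : (if sz (p.1 - 1, p.2) ≤ 1 then (if (p.1 - 1, p.2).1 = 1 then (1 : Po k) else 0)
              else X (p.1 - 1, p.2)) = 0 := by
            rw [if_pos (by simp only [sz]; omega), if_neg (by simp only; omega)]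
          rw [e1, smul_zero]
    · rw [if_neg h5]
      rcases Nat.eq_zero_or_pos p.1 with h3 | h3
      · rw [h3, Nat.cast_zero, zero_smul, zero_smul]
      · rw [if_neg (by simp only [sz]; omega)]

lemma ev_DD (i : Fin k) (f : Po k) : ev (DD i f) = CD i (ev f) := by
  apply ev_der
  intro p
  rw [DD_X, ev_X]
  by_cases h1 : sz p ≤ 1
  · rw [if_pos h1, if_pos h1, map_zero, der_ite01]
  · rw [if_neg h1, if_neg h1, CD_X, map_smul, ev_X]
    have hs : sz p = p.1 + ∑ i, p.2 i := rfl
    have h7 := le_sum p.2 i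
    by_cases h5 : sz p = 2
    · rw [if_pos h5]
      rcases Nat.eq_zero_or_pos (p.2 i) with h3 | h3
      · rw [h3, Nat.cast_zero, zero_smul, if_neg (by omega)]
      · have h4 := sz_D p i h3
        have e1 : (if sz (p.1, p.2 - Pi.single i 1) ≤ 1 then
            (if (p.1, p.2 - Pi.single i 1).1 = 1 then (1 : Po k) else 0)
            else X (p.1, p.2 - Pi.single i 1)) = if p.1 = 1 then 1 else 0 := if_pos (by omega)
        rw [e1]
        by_cases h6 : p.1 = 1
        · have h8 : p.2 i = 1 := by omega
          rw [if_pos h6, if_pos ⟨h6, h8⟩, h8, Nat.cast_one, one_smul]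
        · rw [if_neg h6, if_neg (fun h => h6 h.1), smul_zero]
    · rw [if_neg h5]
      rcases Nat.eq_zero_or_pos (p.2 i) with h3 | h3
      · rw [h3, Nat.cast_zero, zero_smul, zero_smul]
      · have h4 := sz_D p i h3
        rw [if_neg (by omega)]

lemma ev_EU (r i : Fin k) (f : Po k) : ev (EU r i f) = EU r i (ev f) := by
  apply ev_der
  intro p
  rw [EU_X, ev_X, map_smul, ev_X]
  rcases Nat.eq_zero_or_pos (p.2 i) with h3 | h3
  · rw [h3, Nat.cast_zero, zero_smul]
    split_ifs
    · rw [Derivation.map_one_eq_zero]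
    · rw [map_zero]
    · rw [EU_X, h3, Nat.cast_zero, zero_smul]
  rw [sz_EU p r i h3]
  by_cases h1 : sz p ≤ 1
  · have h7 := le_sum p.2 i
    have hs : sz p = p.1 + ∑ i, p.2 i := rfl
    rw [if_pos h1, if_pos h1, der_ite01, if_neg (by simp only; omega), smul_zero]
  · rw [if_neg h1, if_neg h1, EU_X]

end Vale.Agent.P181.GN.H605
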