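import Vale.Agent.P181.GN.H605.Lift
import Vale.Agent.P181.GN.H820.FD

set_option autoImplicit false

/-!
# P181, GN [Q2a]: from `xi = e_1` to the letter ring
-/

open MvPolynomial

namespace Vale.Agent.P181.GN.H605

open Vale.Agent.P181.GN

variable {k : ℕ}

/-- The weight `ln`. -/
def wl (k : ℕ) : Lt k → ℤ := fun _ => 1

/-- The weight `xs`. -/
def wx (k : ℕ) : Lt k → ℤ := fun p => (p.1 : ℤ)

/-- The number of letters of size zero. -/
def wz (k : ℕ) : Lt k → ℤ := fun p => if sz p = 0 then 1 else 0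

lemma weight_wl (v : Lt k →₀ ℕ) : Finsupp.weight (wl k) v = ln v := by
  rw [Finsupp.weight_apply, ln, Finsupp.sum, Finsupp.sum, Nat.cast_sum]
  exact Finset.sum_congr rfl fun p _ => by rw [wl, nsmul_eq_mul, mul_one]

lemma weight_wx (v : Lt k →₀ ℕ) : Finsupp.weight (wx k) v = xs v := by
  rw [Finsupp.weight_apply, xs, Finsupp.sum, Finsupp.sum, Nat.cast_sum]
  exact Finset.sum_congr rfl fun p _ => by rw [wx, nsmul_eq_mul, Nat.cast_mul]

lemma weight_wu (v : Lt k →₀ ℕ) (j : Fin k) :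
    Finsupp.weight (fun p : Lt k => (p.2 j : ℤ)) v = us v j := by
  rw [Finsupp.weight_apply, us, Finsupp.sum, Finsupp.sum, Nat.cast_sum]
  exact Finset.sum_congr rfl fun p _ => by rw [nsmul_eq_mul, Nat.cast_mul]

lemma weight_wz (v : Lt k →₀ ℕ) :
    Finsupp.weight (wz k) v = 0 ↔ ∀ p ∈ v.support, 1 ≤ sz p := by
  rw [Finsupp.weight_apply, Finsupp.sum, Finset.sum_eq_zero_iff_of_nonneg]
  · apply forall₂_congr
    intro p hp
    rw [nsmul_eq_mul, mul_eq_zero, or_iff_right (Nat.cast_ne_zero.2 (Finsupp.mem_support_iff.1 hp))]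
    unfold wz
    by_cases h : sz p = 0
    · rw [if_pos h]
      omega
    · rw [if_neg h]
      omega
  · intro p _
    rw [nsmul_eq_mul]
    unfold wz
    positivity

lemma det' (y : ℕ) (H : Po k) (h1 : IsWeightedHomogeneous (wl k) H y)
    (h2 : IsWeightedHomogeneous (wz k) H 0) (hE : ∀ i, E1 i H = 0) (hev : ev H = 0) : H = 0 := by
  apply det y H _ hE hev
  intro v hv
  have h3 := h1 hv
  rw [weight_wl] at h3
  exact ⟨(weight_wz v).1 (h2 hv), by exact_mod_cast h3⟩

lemma smulX_wh {w : Lt k → ℤ} {n : ℤ} (c : ℂ) (q : Lt k) (h : c ≠ 0 → w q = n) :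
    IsWeightedHomogeneous w (c • (X q : Po k)) n := by
  by_cases hc : c = 0
  · rw [hc, zero_smul]
    exact isWeightedHomogeneous_zero ℂ w _
  · apply smul_wh
    rw [← h hc]
    exact isWeightedHomogeneous_X ℂ w q

lemma der_l (D : Derivation ℂ (Po k) (Po k))
    (hD : ∀ p, IsWeightedHomogeneous (wl k) (D (X p)) 1) {n : ℤ} {f : Po k}
    (hf : IsWeightedHomogeneous (wl k) f n) : IsWeightedHomogeneous (wl k) (D f) n := by
  have h := wh_der D 0 (fun p => by
    have h1 : wl k p + 0 = 1 := rfl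
    rw [h1]
    exact hD p) hf
  rwa [add_zero] at h

lemma der_z (D : Derivation ℂ (Po k) (Po k))
    (hD : ∀ p, IsWeightedHomogeneous (wz k) (D (X p)) (wz k p)) {n : ℤ} {f : Po k}
    (hf : IsWeightedHomogeneous (wz k) f n) : IsWeightedHomogeneous (wz k) (D f) n := by
  have h := wh_der D 0 (fun p => by
    rw [add_zero]
    exact hD p) hf
  rwa [add_zero] at h

lemma EU_l (r i : Fin k) {n : ℤ} {f : Po k} (hf : IsWeightedHomogeneous (wl k) f n) :
    IsWeightedHomogeneous (wl k) (EU r i f) n := by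
  apply der_l _ _ hf
  intro p
  rw [EU_X]
  exact smulX_wh _ _ fun _ => rfl

lemma EU_z (r i : Fin k) {n : ℤ} {f : Po k} (hf : IsWeightedHomogeneous (wz k) f n) :
    IsWeightedHomogeneous (wz k) (EU r i f) n := by
  apply der_z _ _ hf
  intro p
  rw [EU_X]
  apply smulX_wh
  intro h
  rw [Nat.cast_ne_zero] at h
  unfold wz
  rw [sz_EU p r i (by omega)]

lemma DD_l (i : Fin k) {n : ℤ} {f : Po k} (hf : IsWeightedHomogeneous (wl k) f n) :
    IsWeightedHomogeneous (wl k) (DD i f) n := by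
  apply der_l _ _ hf
  intro p
  rw [DD_X]
  split_ifs
  · exact isWeightedHomogeneous_zero ℂ _ _
  · exact smulX_wh _ _ fun _ => rfl

lemma DD_z (i : Fin k) {n : ℤ} {f : Po k} (hf : IsWeightedHomogeneous (wz k) f n) :
    IsWeightedHomogeneous (wz k) (DD i f) n := by
  apply der_z _ _ hf
  intro p
  rw [DD_X]
  split_ifs with h1
  · exact isWeightedHomogeneous_zero ℂ _ _
  · apply smulX_wh
    intro h
    rw [Nat.cast_ne_zero] at h
    have h2 := sz_D p i (by omega)
    unfold wz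
    rw [if_neg (by omega), if_neg (by omega)]

lemma DD0_l {n : ℤ} {f : Po k} (hf : IsWeightedHomogeneous (wl k) f n) :
    IsWeightedHomogeneous (wl k) (DD0 f) n := by
  apply der_l _ _ hf
  intro p
  rw [DD0_X]
  split_ifs
  · exact isWeightedHomogeneous_zero ℂ _ _
  · exact smulX_wh _ _ fun _ => rfl

lemma DD0_z {n : ℤ} {f : Po k} (hf : IsWeightedHomogeneous (wz k) f n) :
    IsWeightedHomogeneous (wz k) (DD0 f) n := by
  apply der_z _ _ hf
  intro p
  rw [DD0_X]
  split_ifs with h1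
  · exact isWeightedHomogeneous_zero ℂ _ _
  · apply smulX_wh
    intro h
    rw [Nat.cast_ne_zero] at h
    have h2 : sz (p.1 - 1, p.2) + 1 = sz p := by
      simp only [sz]
      omega
    unfold wz
    rw [if_neg (by omega), if_neg (by omega)]

lemma good_wl : Good (wl k) (fun _ => 0) := fun _ _ _ => rfl

lemma good_wx : Good (wx k) (fun _ => 1) := by
  intro p i _
  simp only [wx]
  push_cast
  ring

lemma good_wz : Good (wz k) (fun _ => 0) := by
  intro p i h
  unfold wz
  rw [sz_E1 p i h, add_zero]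

/-- The homogenization by `xi_1`. -/
noncomputable def MM (k c : ℕ) : Po k →ₗ[ℂ] Po k :=
  (basisMonomials (Lt k) ℂ).constr ℂ fun v => monomial (v + Finsupp.single x0 (c - ln v)) 1

lemma MM_apply (c : ℕ) (f : Po k) : MM k c f =
    ∑ v ∈ f.support, coeff v f • monomial (v + Finsupp.single x0 (c - ln v)) 1 := by
  conv_lhs => rw [f.as_sum]
  rw [map_sum]
  apply Finset.sum_congr rfl
  intro v _
  have h1 : (monomial v (coeff v f) : Po k) = coeff v f • basisMonomials (Lt k) ℂ v := by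
    rw [coe_basisMonomials, smul_monomial, smul_eq_mul, mul_one]
  rw [h1, map_smul, MM, Module.Basis.constr_basis]

lemma MM_wh {w : Lt k → ℤ} {c : ℕ} {n : ℤ} {f : Po k}
    (hf : ∀ v, coeff v f ≠ 0 → Finsupp.weight w v + (c - ln v : ℕ) * w x0 = n) :
    IsWeightedHomogeneous w (MM k c f) n := by
  rw [MM_apply]
  apply IsWeightedHomogeneous.sum
  intro v hv
  apply smul_wh
  apply isWeightedHomogeneous_monomial
  rw [map_add, Finsupp.weight_single, nsmul_eq_mul]
  exact hf v (mem_support_iff.1 hv)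

lemma ev_MM {c : ℕ} {f : Po k} (hf : ∀ v, coeff v f ≠ 0 → ∀ p ∈ v.support, 2 ≤ sz p) :
    ev (MM k c f) = f := by
  classical
  rw [MM_apply, map_sum]
  conv_rhs => rw [f.as_sum]
  apply Finset.sum_congr rfl
  intro v hv
  have h1 := hf v (mem_support_iff.1 hv)
  have hx : x0 ∉ v.support := by
    intro h
    have h2 := h1 _ h
    rw [sz_x0] at h2
    omega
  have h2 : nu (v + Finsupp.single x0 (c - ln v)) = 0 := by
    rw [nu_add, nu_single x0 _ (fun i => x0_ne i), add_zero]
    apply Finset.sum_eq_zero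
    intro i _
    by_contra hne
    have h3 := h1 _ (Finsupp.mem_support_iff.2 hne)
    rw [sz_xl] at h3
    omega
  have h3 : ∀ p ∈ (v + Finsupp.single x0 (c - ln v)).support, 1 ≤ sz p := by
    intro p hp
    have h4 := Finsupp.support_add hp
    rw [Finset.mem_union] at h4
    rcases h4 with h4 | h4
    · have := h1 p h4
      omega
    · have h5 := Finsupp.support_single_subset h4
      rw [Finset.mem_singleton] at h5
      rw [h5, sz_x0]
  rw [map_smul, ev_mon _ _ h2 h3, smul_monomial, smul_eq_mul, mul_one, Finsupp.erase_add,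
    Finsupp.erase_single, add_zero, Finsupp.erase_of_notMem_support hx]

/-- The lift. -/
noncomputable def Lf (tau : Fin k → ℕ) (y : ℕ) : Po k →ₗ[ℂ] Po k :=
  PL tau (List.finRange k) ∘ₗ MM k (y - ∑ i, tau i)

lemma sum_tau (tau : Fin k → ℕ) : ((List.finRange k).map tau).sum = ∑ i, tau i := by
  rw [← List.ofFn_eq_map, List.sum_ofFn]

lemma Lf_wh {w : Lt k → ℤ} {s : Fin k → ℤ} (hw : Good w s) (tau : Fin k → ℕ) (V y : ℕ)
    (hy : V + ∑ i, tau i ≤ y) {n : ℤ} {f : Po k} (hV : ∀ v, coeff v f ≠ 0 → ln v ≤ V)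
    (hf : ∀ v, coeff v f ≠ 0 → Finsupp.weight w v + (y - ln v) * w x0 = n) :
    IsWeightedHomogeneous w (Lf tau y f) n := by
  have h1 : IsWeightedHomogeneous w (MM k (y - ∑ i, tau i) f)
      (n - (∑ i, tau i : ℕ) * w x0) := by
    apply MM_wh
    intro v hv
    rw [← hf v hv, Nat.cast_sub (by have := hV v hv; omega), Nat.cast_sub (by omega)]
    ring
  have h2 := PL_wh hw tau (List.finRange k) h1
  rw [sum_tau, sub_add_cancel] at h2
  exact h2

lemma ev_Lf (tau : Fin k → ℕ) (y : ℕ) {f : Po k}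
    (hf : ∀ v, coeff v f ≠ 0 → ∀ p ∈ v.support, 2 ≤ sz p) : ev (Lf tau y f) = f := by
  rw [Lf, LinearMap.comp_apply, ev_PL, ev_MM hf]

lemma E1_Lf (tau : Fin k → ℕ) (y : ℕ) {f : Po k} (hf : ∀ v, coeff v f ≠ 0 → ∀ i, us v i = tau i)
    (j : Fin k) : E1 j (Lf tau y f) = 0 := by
  rw [Lf, LinearMap.comp_apply]
  apply E1_PL tau _ (List.nodup_finRange k) _ j (List.mem_finRange j)
  intro i
  apply MM_wh
  intro v hv
  have h1 : ((x0 : Lt k).2 i : ℤ) = 0 := rfl
  rw [weight_wu, hf v hv i, h1, mul_zero, add_zero]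

theorem Lf_mem (V y m0 : ℕ) (tau : Fin k → ℕ) (hy : V + ∑ i, tau i ≤ y) {f : Po k}
    (hf : f ∈ KK V tau y m0) : Lf tau y f ∈ LL tau y m0 := by
  obtain ⟨⟨hf1, hf2⟩, hf3, hf4⟩ := hf
  rw [SetLike.mem_coe, Submodule.mem_iInf] at hf4
  have hc0 : CD0 f = 0 := hf3
  have hc : ∀ i, CD i f = 0 := fun i => hf4 i
  have hV : ∀ v, coeff v f ≠ 0 → ln v ≤ V := fun v hv => (hf1 v hv).2
  have hE := E1_Lf tau y (fun v hv => (hf1 v hv).1.2.2)
  have hev := ev_Lf tau y (fun v hv => (hf1 v hv).1.1)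
  have hl : IsWeightedHomogeneous (wl k) (Lf tau y f) y := by
    apply Lf_wh good_wl tau V y hy hV
    intro v hv
    rw [weight_wl]
    have h1 : wl k x0 = 1 := rfl
    rw [h1]
    ring
  have hz : IsWeightedHomogeneous (wz k) (Lf tau y f) 0 := by
    apply Lf_wh good_wz tau V y hy hV
    intro v hv
    have h1 : wz k x0 = 0 := by
      rw [wz, sz_x0, if_neg one_ne_zero]
    rw [h1, mul_zero, add_zero, weight_wz]
    exact fun p hp => (Nat.le_succ 1).trans ((hf1 v hv).1.1 p hp)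
  have hx : IsWeightedHomogeneous (wx k) (Lf tau y f) m0 := by
    apply Lf_wh good_wx tau V y hy hV
    intro v hv
    rw [weight_wx]
    have h1 : wx k x0 = 1 := rfl
    have h2 := (hf1 v hv).1.2.1
    have h3 : (xs v : ℤ) + y = m0 + ln v := by exact_mod_cast h2
    rw [h1]
    linarith
  have hu : ∀ i, IsWeightedHomogeneous (fun p : Lt k => (p.2 i : ℤ)) (Lf tau y f) (tau i) := by
    intro i
    apply Lf_wh (good_us i) tau V y hy hV
    intro v hv
    have h1 : ((x0 : Lt k).2 i : ℤ) = 0 := rfl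
    rw [weight_wu, (hf1 v hv).1.2.2 i, h1, mul_zero, add_zero]
  have hD : ∀ i, DD i (Lf tau y f) = 0 := by
    intro i
    apply det' y _ (DD_l i hl) (DD_z i hz)
    · intro j
      rw [E1_DD, hE j, map_zero]
    · rw [ev_DD, hev, hc i]
  refine ⟨⟨fun v hv => ?_, fun r i hri => ?_⟩, ?_, ?_, ?_⟩
  · refine ⟨(weight_wz v).1 (hz hv), ?_, ?_, fun i => ?_⟩
    · have h := hl hv
      rw [weight_wl] at h
      exact_mod_cast h
    · have h := hx hv
      rw [weight_wx] at h
      exact_mod_cast h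
    · have h := hu i hv
      rw [weight_wu] at h
      exact_mod_cast h
  · apply det' y _ (EU_l r i hl) (EU_z r i hz)
    · intro l
      have h := EU_E1 r i l hri (Lf tau y f)
      rw [hE l, map_zero, hE i, neg_zero, ite_self, zero_sub, neg_eq_zero] at h
      exact h
    · rw [ev_EU, hev, hf2 r i hri]
  · rw [SetLike.mem_coe, Submodule.mem_iInf]
    exact fun i => hE i
  · show DD0 (Lf tau y f) = 0
    apply det' y _ (DD0_l hl) (DD0_z hz)
    · intro j
      have h := E1_DD0 j (Lf tau y f)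
      rw [hE j, map_zero, sub_zero, hD j, neg_zero] at h
      exact h
    · rw [ev_DD0, hev, hc0]
  · rw [SetLike.mem_coe, Submodule.mem_iInf]
    exact fun i => hD i

lemma finiteDimensional_LL (tau : Fin k → ℕ) (y m0 : ℕ) :
    FiniteDimensional ℂ (LL tau y m0) := by
  have h1 : FiniteDimensional ℂ (UH (gLL tau y m0)) := by
    apply H820.finiteDimensional_UH
    apply H820.finite_of_tot (m0 + ∑ i, tau i)
    rintro v ⟨hv1, _, hv3, hv4⟩
    refine ⟨hv1, ?_⟩
    rw [H820.tot_eq, hv3, Finset.sum_congr rfl fun i _ => hv4 i]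
  exact Submodule.finiteDimensional_of_le (inf_le_left : LL tau y m0 ≤ UH (gLL tau y m0))

/-- **[Q2a]**. -/
theorem q2a : Q2a := by
  intro k V y m0 tau hy
  have h1 := finiteDimensional_LL tau y m0
  apply LinearMap.finrank_le_finrank_of_injective
    (f := (Lf tau y).restrict (fun f hf => Lf_mem V y m0 tau hy hf))
  intro f g hfg
  have h2 : Lf tau y f.1 = Lf tau y g.1 := congrArg Subtype.val hfg
  apply Subtype.ext
  rw [← ev_Lf tau y (fun v hv => (f.2.1.1 v hv).1.1), h2,
    ev_Lf tau y (fun v hv => (g.2.1.1 v hv).1.1)]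

end Vale.Agent.P181.GN.H605
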